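import Vale.Agent.P006.Main

/-- Patterson's first moment conjecture for cubic Gauss sums, rational prime form. -/
theorem Vale.Agent.Results.P006.Patterson.result :
    Asymptotics.IsEquivalent Filter.atTop
      (fun X : ℝ => ∑ p ∈ (Finset.Icc 1 ⌊X⌋₊).filter (fun p : ℕ => p.Prime ∧ p % 3 = 1),
        (∑ x ∈ Finset.range p, Complex.exp (2 * Real.pi * Complex.I * ((x : ℂ) ^ 3 / (p : ℂ))))
          / (2 * ((Real.sqrt (p : ℝ) : ℝ) : ℂ)))
      (fun X : ℝ => (((2 * Real.pi) ^ (2 / 3 : ℝ) / (5 * Real.Gamma (2 / 3))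
        * (X ^ (5 / 6 : ℝ) / Real.log X) : ℝ) : ℂ)) := by
  have h := Pat.patterson
  unfold Pat.Final at h
  convert h
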